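import Vale.Agent.P181.BL.Defs
import Vale.Agent.P181.TL.H797.CoreN

set_option autoImplicit false

/-!
# P181, BL, (B10): `CoreR` from `UpR`, `BalB`, `LowR`
-/

namespace Vale.Agent.P181.BL.H820

open Vale.Agent.P181.T4 (HW)
open Vale.Agent.P181.H280 (plethMult)
open Vale.Agent.P181.SZ
open Vale.Agent.P181.TL (KK BalB)
open Vale.Agent.P181.TL.H797 (bal bal_le sum_bal)
open Vale.Agent.P181.BL

/-- The boxes of the tail. -/
lemma sum_tail_le {k r : ℕ} (lam : Fin (k + 1 + r + 2) → ℕ) :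
    ∑ i, tail (k := k) (r := r) lam i ≤ ∑ i, lam i := by
  classical
  let e : Fin (k + 1) ↪ Fin (k + 1 + r + 2) :=
    ⟨fun i => ⟨i + r + 2, by omega⟩, fun i j h => by
      have h1 : (i : ℕ) + r + 2 = (j : ℕ) + r + 2 := congrArg Fin.val h
      exact Fin.ext (by omega)⟩
  have h1 : ∑ i, tail (k := k) (r := r) lam i = ∑ j ∈ Finset.univ.map e, lam j := by
    rw [Finset.sum_map]
    rfl
  rw [h1]
  exact Finset.sum_le_sum_of_subset (Finset.subset_univ _)

/-- The numbers behind `CoreR`. -/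
lemma numR {a b r q X t E : ℕ} (ha : 6 ≤ a) (hb : b ≤ a ^ 2) (hr : 1 ≤ r) (hq : 24 ≤ q)
    (hX : 1 ≤ X) (haX : a ≤ X ^ 2) (hab : a ≤ b) (ht : t ≤ a * b) (hE : E + 1 ≤ a ^ 3) :
    (E + 1) ^ (r + 1) * ((a + b).choose a * (a * b + 1) ^ (a * r) * (a + t - 1).choose t) ≤
      X ^ (r * (q * a)) := by
  have ha0 : 0 < a := by omega
  have h6 : 6 * (a * a) ≤ a * (a * a) := Nat.mul_le_mul_right _ ha
  have h7 : 6 * (a ^ 3) ≤ a * (a ^ 3) := Nat.mul_le_mul_right _ ha
  have h8 : 6 * a ≤ a * a := Nat.mul_le_mul_right _ ha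
  have e2 : a ^ 2 = a * a := by ring
  have e3 : a ^ 3 = a * (a * a) := by ring
  have e4 : a ^ 4 = a * a ^ 3 := by ring
  have hab3 : a * b ≤ a ^ 3 := by
    calc a * b ≤ a * a ^ 2 := Nat.mul_le_mul_left _ hb
      _ = a ^ 3 := by ring
  have g1 : (a + b).choose a ≤ a ^ (3 * a) := by
    calc (a + b).choose a ≤ (a + b) ^ a := Nat.choose_le_pow _ _
      _ ≤ (a ^ 3) ^ a := Nat.pow_le_pow_left (by omega) _
      _ = a ^ (3 * a) := by rw [← pow_mul]
  have g2 : (a * b + 1) ^ (a * r) ≤ a ^ (4 * (a * r)) := by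
    calc (a * b + 1) ^ (a * r) ≤ (a ^ 4) ^ (a * r) := Nat.pow_le_pow_left (by omega) _
      _ = a ^ (4 * (a * r)) := by rw [← pow_mul]
  have g3 : (a + t - 1).choose t ≤ a ^ (4 * a) := by
    have h1 : (a + t - 1).choose t = (a + t - 1).choose (a - 1) := by
      rw [← Nat.choose_symm_of_eq_add (show a + t - 1 = (a - 1) + t by omega)]
    calc (a + t - 1).choose t = (a + t - 1).choose (a - 1) := h1
      _ ≤ (a + t - 1) ^ (a - 1) := Nat.choose_le_pow _ _
      _ ≤ (a ^ 4) ^ (a - 1) := Nat.pow_le_pow_left (by omega) _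
      _ ≤ (a ^ 4) ^ a := Nat.pow_le_pow_right (by positivity) (by omega)
      _ = a ^ (4 * a) := by rw [← pow_mul]
  have g4 : (E + 1) ^ (r + 1) ≤ a ^ (3 * (r + 1)) := by
    calc (E + 1) ^ (r + 1) ≤ (a ^ 3) ^ (r + 1) := Nat.pow_le_pow_left hE _
      _ = a ^ (3 * (r + 1)) := by rw [← pow_mul]
  have hexp : 3 * (r + 1) + (3 * a + 4 * (a * r) + 4 * a) ≤ 12 * (a * r) := by
    have h1 : a ≤ a * r := Nat.le_mul_of_pos_right _ hr
    have h2 : 6 * r ≤ a * r := Nat.mul_le_mul_right _ ha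
    omega
  calc (E + 1) ^ (r + 1) * ((a + b).choose a * (a * b + 1) ^ (a * r) * (a + t - 1).choose t)
      ≤ a ^ (3 * (r + 1)) * (a ^ (3 * a) * a ^ (4 * (a * r)) * a ^ (4 * a)) :=
        Nat.mul_le_mul g4 (Nat.mul_le_mul (Nat.mul_le_mul g1 g2) g3)
    _ = a ^ (3 * (r + 1) + (3 * a + 4 * (a * r) + 4 * a)) := by rw [pow_add, pow_add, pow_add]
    _ ≤ a ^ (12 * (a * r)) := Nat.pow_le_pow_right ha0 hexp
    _ ≤ (X ^ 2) ^ (12 * (a * r)) := Nat.pow_le_pow_left haX _
    _ = X ^ (24 * (a * r)) := by rw [← pow_mul]; ring_nf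
    _ ≤ X ^ (r * (q * a)) := by
        refine Nat.pow_le_pow_right hX ?_
        calc 24 * (a * r) ≤ q * (a * r) := Nat.mul_le_mul_right _ hq
          _ = r * (q * a) := by ring

/-- **(B10)**. -/
theorem coreR (hUp : UpR) (hBal : BalB) (hLow : LowR) : CoreR := by
  intro a b k r q m X lam hanti hsum ha hb hr hq hm hX hra haX h2 h3 h4
  have ha0 : 0 < a := by omega
  obtain ⟨t, ht⟩ : ∃ t, t = ∑ i, tail (k := k) (r := r) lam i := ⟨_, rfl⟩
  have htab : t ≤ a * b := by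
    rw [ht, ← hsum]
    exact sum_tail_le lam
  have u1 := hUp a b k r lam hsum
  have u2 := hBal (k + 1) a (tail (k := k) (r := r) lam) (bal a t) ha0 (bal_le a _)
    (by rw [← ht]; exact sum_bal ha0 _)
  rw [← ht] at u2
  have u3 := hLow a b k r q m X lam (bal a t) hanti hsum ha0 hr (by omega) hm hX hra
    (fun i => by rw [← ht]; rfl) h2 h3 h4
  have h3q : 3 * q * a ≤ b := by
    have h4' := h4
    generalize (∑ i, tl lam i) / a = D at h4'
    omega
  have hab : a ≤ b := by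
    calc a ≤ 3 * q * a := Nat.le_mul_of_pos_left _ (by omega)
      _ ≤ b := h3q
  have hE : Eb a q m X r + 1 ≤ a ^ 3 := by
    have e1 : 2 * (1 + (m + r + 1) * X + q * (a / m) + q) ≤ a := by
      have h2' := h2
      generalize (∑ i, tail (k := k) (r := r) lam i) / a / q = D at h2'
      generalize (m + r + 1) * X = Y at h2' ⊢
      generalize q * (a / m) = Z at h2' ⊢
      omega
    have e2 : 3 * q ≤ a := by
      have : 3 * q * a ≤ a * a := by
        calc 3 * q * a ≤ b := h3q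
          _ ≤ a ^ 2 := hb
          _ = a * a := by ring
      exact Nat.le_of_mul_le_mul_right this ha0
    have e3 : 6 * Eb a q m X r ≤ a ^ 3 := by
      rw [Eb]
      calc 6 * (q * a * (1 + (m + r + 1) * X + q * (a / m) + q)) =
          3 * q * (a * (2 * (1 + (m + r + 1) * X + q * (a / m) + q))) := by ring
        _ ≤ a * (a * a) := Nat.mul_le_mul e2 (Nat.mul_le_mul_left _ e1)
        _ = a ^ 3 := by ring
    have e4 : 6 ≤ a ^ 3 := by
      calc 6 ≤ a := ha
        _ ≤ a ^ 3 := Nat.le_self_pow (by omega) _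
    omega
  have hnum := numR (t := t) ha hb hr hq hX haX hab htab hE
  have hpos : 0 < (Eb a q m X r + 1) ^ (r + 1) := by positivity
  refine Nat.le_of_mul_le_mul_left ?_ hpos
  set K := Module.finrank ℂ (KK (k + 1) (Fin a) (bal a t) (tail (k := k) (r := r) lam)) with hK
  calc (Eb a q m X r + 1) ^ (r + 1) * plethMult a b (k + 1 + r + 2) lam
      ≤ (Eb a q m X r + 1) ^ (r + 1) * ((a + b).choose a * (a * b + 1) ^ (a * r) *
          ((a + t - 1).choose t * K)) :=
        Nat.mul_le_mul_left _ (u1.trans (Nat.mul_le_mul_left _ u2))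
    _ = (Eb a q m X r + 1) ^ (r + 1) * ((a + b).choose a * (a * b + 1) ^ (a * r) *
          (a + t - 1).choose t) * K := by ring
    _ ≤ X ^ (r * (q * a)) * K := Nat.mul_le_mul_right _ hnum
    _ ≤ (Eb a q m X r + 1) ^ (r + 1) * plethMult b a (k + 1 + r + 2) lam := u3

end Vale.Agent.P181.BL.H820
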